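import Vale.Agent.P290Z.Spec2

/-! P290Z: maps into the fibres of a family, and determinants in dimension two. -/

open Set Filter Metric
open scoped Topology Manifold ContDiff

namespace Vale.Agent.P290Z.Tw

open Vale.Agent.P290 Vale.Agent.P290.H805 Vale.Agent.P290.R2.H596

section lin

theorem det_eq (A : C2 →L[ℂ] C2) : A.det = det2 (A (1, 0)) (A (0, 1)) := by
  rw [ContinuousLinearMap.det, ← LinearMap.det_toMatrix (Module.Basis.finTwoProd ℂ),
    Matrix.det_fin_two]
  simp [LinearMap.toMatrix_apply, det2, mul_comm]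

theorem det_comp (A B : C2 →L[ℂ] C2) : (A.comp B).det = A.det * B.det := by
  simp only [ContinuousLinearMap.det, ContinuousLinearMap.toLinearMap_comp, LinearMap.det_comp]

/-- the linear map with columns `e`, `u` -/
noncomputable def col (e u : C2) : C2 →L[ℂ] C2 :=
  (ContinuousLinearMap.fst ℂ ℂ ℂ).smulRight e + (ContinuousLinearMap.snd ℂ ℂ ℂ).smulRight u

theorem col_apply (e u q : C2) : col e u q = q.1 • e + q.2 • u := by
  simp [col]

theorem det_col (e u : C2) : (col e u).det = det2 e u := by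
  rw [det_eq]; simp [col_apply]

theorem det2_map (A : C2 →L[ℂ] C2) (e u : C2) : det2 (A e) (A u) = A.det * det2 e u := by
  rw [← det_col e u, ← det_comp, det_eq]; simp [col_apply]

theorem hasDerivAt_dir {f : C2 → C2} {z : C2} (hf : DifferentiableAt ℂ f z) (v : C2) :
    HasDerivAt (fun a : ℂ => f (z + a • v)) (fderiv ℂ f z v) 0 := by
  have h1 : HasDerivAt (fun a : ℂ => z + a • v) v 0 := by
    simpa using ((hasDerivAt_id (0 : ℂ)).smul_const v).const_add z
  have h2 : HasFDerivAt f (fderiv ℂ f z) (z + (0 : ℂ) • v) := by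
    rw [zero_smul, add_zero]; exact hf.hasFDerivAt
  exact h2.comp_hasDerivAt (0 : ℂ) h1

end lin

section fam

variable {T E : Type} [TopologicalSpace T] [TopologicalSpace E] {F : Family T E} {t : T}
variable {V : Type} [NormedAddCommGroup V] [NormedSpace ℂ V]

theorem t2_fib [T2Space E] (F : Family T E) (t : T) : T2Space (Fib F t) :=
  (Topology.IsEmbedding.mk isInducing_val fun _ _ h => Fib.ext h).t2Space

theorem mem_OmE {x : E} (h : F.p x = t) : x ∈ OmE F ↔ (⟨x, h⟩ : Fib F t) ∈ Om (Fib F t) := by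
  subst h; rfl

open Classical in
/-- a map to the total space, seen as a map to a fibre -/
noncomputable def lift (x₀ : Fib F t) (u : V → E) (z : V) : Fib F t :=
  if h : F.p (u z) = t then ⟨u z, h⟩ else x₀

omit [NormedAddCommGroup V] [NormedSpace ℂ V] in
theorem lift_eq (x₀ : Fib F t) {u : V → E} {z : V} (h : F.p (u z) = t) :
    lift x₀ u z = ⟨u z, h⟩ := by
  rw [lift, dif_pos h]

theorem fh_lift (x₀ : Fib F t) {u : V → E} {z : V} (h : FH F t u z) :
    FH F t (fun y => (lift x₀ u y).1) z := by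
  refine h.congr ?_
  filter_upwards [h.1] with y hy
  rw [lift_eq x₀ hy]

theorem md_of_fh {f : V → Fib F t} {z : V} (h : FH F t (fun y => (f y).1) z) : MD f z := by
  rw [MD, mdifferentiableAt_iff]
  refine ⟨isInducing_val.continuousAt_iff.2 h.2.1, ?_⟩
  simp only [mfld_simps, differentiableWithinAt_univ]
  exact h.2.2

theorem md_lift (x₀ : Fib F t) {u : V → E} {z : V} (h : FH F t u z) : MD (lift x₀ u) z :=
  md_of_fh (fh_lift x₀ h)

/-- points of the same fibre with the same coordinate -/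
theorem eq_of_coord {x y y' : E} (hy : y ∈ (F.triv x).source) (hy' : y' ∈ (F.triv x).source)
    (hp : F.p y = F.p y') (hc : (F.triv x y).2 = (F.triv x y').2) : y = y' := by
  refine (F.triv x).injOn hy hy' ?_
  rw [F.mk_eq x hy, F.mk_eq x hy', hp, hc]

theorem det_ne_of_triv {S : C2 → E} {z : C2} (h : FH F t S z) {x : E}
    (hx : S z ∈ (F.triv x).source) (hd : (fderiv ℂ (fun y => (F.triv x (S y)).2) z).det ≠ 0) :
    (fderiv ℂ (fun y => (F.triv (S z) (S y)).2) z).det ≠ 0 := by
  have hzt : F.p (S z) = t := h.1.self_of_nhds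
  have e1 : F.triv x (S z) = (t, (F.triv x (S z)).2) := by
    rw [← hzt]; exact F.mk_eq _ hx
  have hD : Dm F x (S z) t (F.triv x (S z)).2 := by
    refine ⟨?_, ?_⟩
    · rw [← e1]; exact (F.triv x).map_source hx
    · rw [← e1, (F.triv x).left_inv hx]; exact F.mem _
  have h2 : (fun y => (F.triv (S z) (S y)).2) =ᶠ[𝓝 z]
      fun y => tr F x (S z) t (F.triv x (S y)).2 := by
    filter_upwards [h.1, h.eventually_source hx] with y hy1 hy2
    have e4 : F.triv x (S y) = (t, (F.triv x (S y)).2) := by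
      rw [← hy1]; exact F.mk_eq _ hy2
    rw [tr, ← e4, (F.triv x).left_inv hy2]
  have h3 := _root_.fderiv_comp (𝕜 := ℂ) (g := tr F x (S z) t)
    (f := fun y => (F.triv x (S y)).2) z (hD.contDiffAt.differentiableAt (by simp)) (h.diff hx)
  rw [h2.fderiv_eq]
  refine ne_of_eq_of_ne (congrArg ContinuousLinearMap.det h3) ?_
  rw [det_comp]
  exact mul_ne_zero hD.det_ne hd

theorem etale_lift (x₀ : Fib F t) {S : C2 → E} {z : C2} (h : FH F t S z) {x : E}
    (hx : S z ∈ (F.triv x).source) (hd : (fderiv ℂ (fun y => (F.triv x (S y)).2) z).det ≠ 0) :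
    All.Etale (lift x₀ S) z := by
  have h1 := fh_lift x₀ h
  have e : (fun y => (lift x₀ S y).1) =ᶠ[𝓝 z] S := by
    filter_upwards [h.1] with y hy
    rw [lift_eq x₀ hy]
  refine ⟨isInducing_val.continuousAt_iff.2 h1.2.1, h1.2.2, ?_⟩
  have e0 : (lift x₀ S z).1 = S z := e.self_of_nhds
  refine det_ne_of_triv (x := x) h1 (by rw [e0]; exact hx) ?_
  have e2 : (fun y => (F.triv x (lift x₀ S y).1).2) =ᶠ[𝓝 z] fun y => (F.triv x (S y)).2 := by
    filter_upwards [e] with y hy
    rw [hy]
  rw [e2.fderiv_eq]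
  exact hd

end fam

end Vale.Agent.P290Z.Tw
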